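import Vale.Agent.P084.Asymp.Defs
import Vale.Agent.P084.Asymp.Lp
import Vale.Agent.P084.Asymp.LpSub
import Vale.Agent.P084.Asymp.Reverse

/-!
# P084: the Mazur-Ulam property for asymptotically lp spaces with a convexity property

The spaces are infinite-dimensional and need not be lattices; the target space is arbitrary.
-/

universe u v w

open Vale.Agent.P084.Asymp

theorem Vale.Agent.Results.P084.AsymptoticPower.result :
    (∀ (X : Type u) [NormedAddCommGroup X] [NormedSpace ℝ X] (p : ℝ), 0 < p →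
      HasClarksonInequality X p → HasAlmostOrthogonalVectors X p →
      HasMazurUlamProperty.{u, v} X) ∧
    (∀ (ι : Type w) (Z : Type u) [Infinite ι] [NormedAddCommGroup Z] [NormedSpace ℝ Z]
      [Nontrivial Z] (K q p : ℝ) [Fact (1 ≤ ENNReal.ofReal p)],
      0 < K → 0 < q → q ≤ p → 2 ≤ (1 + K) ^ (p / q) → HasPowerTypeConvexity Z K q →
      LpHasMazurUlam.{u, v, w} ι Z p) ∧
    (∀ (X : Type u) [NormedAddCommGroup X] [NormedSpace ℝ X] [UniformConvexSpace X] (p : ℝ),
      0 < p → ¬ FiniteDimensional ℝ X → HasPropertyMp X p →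
      HasMazurUlamProperty.{u, v} X) ∧
    (∀ (X : Type u) [NormedAddCommGroup X] [NormedSpace ℝ X] [UniformConvexSpace X] (p : ℝ),
      0 < p → HasReverseStructure X p → HasMazurUlamProperty.{u, v} X) ∧
    (∀ (ι : Type w) (Z : Type u) [NormedAddCommGroup Z] [NormedSpace ℝ Z]
      [FiniteDimensional ℝ Z] [StrictConvexSpace ℝ Z] (p : ℝ) [Fact (1 ≤ ENNReal.ofReal p)],
      1 < p → SubspacesHaveMazurUlam.{max w u, v} (lp (fun _ : ι => Z) (ENNReal.ofReal p))) := by
  refine ⟨fun X _ _ p hp hC hA Y _ _ f hf hs => extend hp hC hA f hf hs, ?_,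
    fun X _ _ _ p hp hinf hM Y _ _ f hf hs => extend_of_propM hp hinf
      (fun ε hε => by
        obtain ⟨δ, hδ, h⟩ := exists_forall_closed_ball_dist_add_le_two_sub X hε
        exact ⟨δ, hδ, fun x y hx hy hxy => h hx hy hxy⟩) hM f hf hs,
    fun X _ _ _ p hp hR Y _ _ f hf hs => extend_reverse hp
      (fun ε hε => by
        obtain ⟨δ, hδ, h⟩ := exists_forall_closed_ball_dist_add_le_two_sub X hε
        exact ⟨δ, hδ, fun x y hx hy hxy => h hx hy hxy⟩) hR.1 hR.2 f hf hs,
    fun ι Z _ _ _ _ p _ hp W hW hinf Y _ _ f hf hs => extend_lp_submodule hp W hW hinf f hf hs⟩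
  intro ι Z _ _ _ _ K q p _ hK hq hqp hKp hZ Y _ _ f hf hs
  have hp : 0 < p := hq.trans_le hqp
  exact extend hp (clarkson_lp hp (clarkson_of_powerType hK hq hqp hKp hZ))
    (almost_orthogonal_lp hp) f hf hs
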