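import Vale.Agent.P084.Main

open Metric Vale.Agent.P084

universe u v

theorem Vale.Agent.Results.P084.FiniteDimensional.result :
    (∀ (X : Type u) [NormedAddCommGroup X] [NormedSpace ℝ X] [FiniteDimensional ℝ X]
      (Y : Type v) [NormedAddCommGroup Y] [NormedSpace ℝ Y]
      (f : sphere (0 : X) 1 → sphere (0 : Y) 1), Isometry f → Function.Surjective f →
        ∃ T : X ≃ₗᵢ[ℝ] Y, ∀ x : sphere (0 : X) 1, T x = f x) ∧
    (∀ (X : Type u) [NormedAddCommGroup X] [NormedSpace ℝ X] [FiniteDimensional ℝ X]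
      (Y : Type v) [NormedAddCommGroup Y] [NormedSpace ℝ Y] [FiniteDimensional ℝ Y]
      (U : Set X) (V : Set Y), IsOpen U → Convex ℝ U → Bornology.IsBounded U → U.Nonempty →
      IsOpen V → Convex ℝ V → Bornology.IsBounded V → V.Nonempty →
      ∀ f : frontier U → frontier V, Isometry f → Function.Surjective f →
        ∃ A : X ≃ᵃⁱ[ℝ] Y, ∀ x : frontier U, A x = f x) :=
  ⟨fun _ _ _ _ _ _ _ f hf hfs => sphere_isometry_linear f hf hfs,
    fun _ _ _ _ _ _ _ _ _ _ hU hUc hUb hUne hV hVc hVb hVne f hf hfs =>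
      boundary_isometry_affine hU hUc hUb hUne hV hVc hVb hVne f hf hfs⟩
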