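import Vale.Agent.P084.Near.Main

/-!
# P084: spaces with von Neumann-Jordan constant close to one have the Mazur-Ulam property

The result holds for spaces of arbitrary dimension, and the target space is arbitrary.
-/

universe u v

open Metric

theorem Vale.Agent.Results.P084.NearHilbert.result :
    ∃ δ : ℝ, 0 < δ ∧ ∀ (X : Type u) (Y : Type v) [NormedAddCommGroup X] [NormedSpace ℝ X]
      [NormedAddCommGroup Y] [NormedSpace ℝ Y],
      (∀ a b : X, ‖a + b‖ ^ 2 + ‖a - b‖ ^ 2 ≤ 2 * (1 + δ) * (‖a‖ ^ 2 + ‖b‖ ^ 2)) →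
      ∀ f : sphere (0 : X) 1 → sphere (0 : Y) 1, Isometry f → Function.Surjective f →
        ∃ T : X ≃ₗᵢ[ℝ] Y, ∀ x : sphere (0 : X) 1, T x = f x :=
  Vale.Agent.P084.Near.exists_mazurUlam_radius
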