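import Vale.Agent.P084.Smooth.Final

/-!
# P084: uniformly twice expandable, uniformly convex norms have the Mazur-Ulam property

The space may have any dimension and need not be complete; the target space is arbitrary.
-/

universe u v

open Metric

theorem Vale.Agent.Results.P084.SmoothConvex.result :
    ∀ (X : Type u) (Y : Type v) [NormedAddCommGroup X] [NormedSpace ℝ X]
      [NormedAddCommGroup Y] [NormedSpace ℝ Y],
      (∃ (J : X → X →L[ℝ] ℝ) (Q : X → X →L[ℝ] X →L[ℝ] ℝ) (c : ℝ), 0 < c ∧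
        (∀ p : X, ‖p‖ = 1 → ∀ h : X, c * ‖h‖ ^ 2 ≤ Q p h h) ∧
        ∀ ε : ℝ, 0 < ε → ∃ δ : ℝ, 0 < δ ∧ ∀ p h : X, ‖p‖ = 1 → ‖h‖ ≤ δ →
          |‖p + h‖ ^ 2 - 1 - J p h - Q p h h| ≤ ε * ‖h‖ ^ 2) →
      ∀ f : sphere (0 : X) 1 → sphere (0 : Y) 1, Isometry f → Function.Surjective f →
        ∃ T : X ≃ₗᵢ[ℝ] Y, ∀ x : sphere (0 : X) 1, T x = f x := by
  intro X Y _ _ _ _ ⟨J, Q, c, hc, hpos, hexp⟩ f hf hsurj
  exact Vale.Agent.P084.Smooth.mazurUlam_of_expansion hc hpos hexp f hf hsurj
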